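import Mathlib

/-!
# P314: every matrix hitting set for noncommutative formulas of size `s` has total dimension
at least `(s + 2) / 4`
-/

open Polynomial

namespace Vale.Agent.Results.P314.TotalDimension

/-- Noncommutative formulas over `F` in the variables `x_0, …, x_{n-1}`: rooted binary trees whose
leaves are variables or scalars and whose internal vertices are additions or (ordered)
multiplications. -/
inductive Formula (F : Type) (n : ℕ) : Type
  | var : Fin n → Formula F n
  | const : F → Formula F n
  | add : Formula F n → Formula F n → Formula F n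
  | mul : Formula F n → Formula F n → Formula F n

/-- The size of a formula: its total number of vertices, leaves included. -/
def Formula.size {F : Type} {n : ℕ} : Formula F n → ℕ
  | .var _ => 1
  | .const _ => 1
  | .add a b => a.size + b.size + 1
  | .mul a b => a.size + b.size + 1

/-- The element of the free associative algebra computed by a formula. -/
noncomputable def Formula.poly {F : Type} [Field F] {n : ℕ} :
    Formula F n → FreeAlgebra F (Fin n)
  | .var i => FreeAlgebra.ι F i
  | .const c => algebraMap F (FreeAlgebra F (Fin n)) c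
  | .add a b => a.poly + b.poly
  | .mul a b => a.poly * b.poly

/-- `IsHittingSet n s H`: the finite set `H` of tuples `T = (T_0, …, T_{n-1})` of square matrices
(the dimension `T.1` may vary with the tuple) is a hitting set for the polynomials computed by
formulas of size at most `s`: every such nonzero polynomial has a nonzero (ordered) matrix
evaluation at some tuple of `H`. -/
def IsHittingSet {F : Type} [Field F] (n s : ℕ)
    (H : Finset (Σ d : ℕ, Fin n → Matrix (Fin d) (Fin d) F)) : Prop :=
  ∀ φ : Formula F n, φ.size ≤ s → φ.poly ≠ 0 →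
    ∃ T ∈ H, FreeAlgebra.lift F T.2 φ.poly ≠ 0

lemma monic_divX {F : Type} [Field F] {p : F[X]} (hp : p.Monic) (hd : 1 ≤ p.natDegree) :
    p.divX.Monic := by
  unfold Polynomial.Monic Polynomial.leadingCoeff
  rw [natDegree_divX_eq_natDegree_tsub_one, coeff_divX, Nat.sub_add_cancel hd]
  exact hp

/-- Horner's rule as a formula. -/
lemma horner {F : Type} [Field F] {n : ℕ} (x : Fin n) (D : ℕ) :
    ∀ p : F[X], p.Monic → p.natDegree = D + 1 →
      ∃ φ : Formula F n, φ.size = 4 * D + 3 ∧ φ.poly = aeval (FreeAlgebra.ι F x) p := by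
  induction D with
  | zero =>
    intro p hp hd
    refine ⟨.add (.var x) (.const (p.coeff 0)), rfl, ?_⟩
    have hq : p.divX = 1 := by
      have hm := monic_divX hp (by omega)
      apply hm.natDegree_eq_zero.1
      rw [natDegree_divX_eq_natDegree_tsub_one, hd]
    have hpe : p = X + C (p.coeff 0) := by
      conv_lhs => rw [← divX_mul_X_add p, hq, one_mul]
    conv_rhs => rw [hpe]
    simp [Formula.poly]
  | succ D ih =>
    intro p hp hd
    have hm := monic_divX hp (by omega)
    have hdeg : p.divX.natDegree = D + 1 := by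
      rw [natDegree_divX_eq_natDegree_tsub_one, hd]; rfl
    obtain ⟨φ, hsize, hpoly⟩ := ih p.divX hm hdeg
    refine ⟨.add (.mul φ (.var x)) (.const (p.coeff 0)), ?_, ?_⟩
    · simp only [Formula.size, hsize]; ring
    · conv_rhs => rw [← divX_mul_X_add p]
      simp [Formula.poly, hpoly]

/-- **Main result.**  Over any field, for `n ≥ 1` variables and size bound `s ≥ 1`, every hitting
set `H` for the noncommutative formulas of size at most `s` satisfies
`∑_{T ∈ H} dim T ≥ (s + 2) / 4`. -/
theorem result (F : Type) [Field F] (n s : ℕ) (hn : 1 ≤ n) (hs : 1 ≤ s)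
    (H : Finset (Σ d : ℕ, Fin n → Matrix (Fin d) (Fin d) F)) (hH : IsHittingSet n s H) :
    s + 2 ≤ 4 * ∑ T ∈ H, T.1 := by
  classical
  set x : Fin n := ⟨0, hn⟩ with hx
  set P : F[X] := ∏ T ∈ H, (T.2 x).charpoly with hP
  have hmonic : P.Monic := monic_prod_of_monic _ _ (fun T _ => Matrix.charpoly_monic _)
  have hdeg : P.natDegree = ∑ T ∈ H, T.1 := by
    rw [hP, natDegree_prod_of_monic _ _ (fun T _ => Matrix.charpoly_monic _)]
    apply Finset.sum_congr rfl
    intro T _
    rw [Matrix.charpoly_natDegree_eq_dim, Fintype.card_fin]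
  have hvanish : ∀ T ∈ H, FreeAlgebra.lift F T.2 (aeval (FreeAlgebra.ι F x) P) = 0 := by
    intro T hT
    rw [← aeval_algHom_apply, FreeAlgebra.lift_ι_apply]
    obtain ⟨Q, hQ⟩ := Finset.dvd_prod_of_mem (fun T : (Σ d : ℕ, Fin n → Matrix (Fin d) (Fin d) F) =>
      (T.2 x).charpoly) hT
    rw [hP, hQ, map_mul, Matrix.aeval_self_charpoly, zero_mul]
  have hne : aeval (FreeAlgebra.ι F x) P ≠ 0 := by
    intro h0
    have h1 := congrArg (FreeAlgebra.lift F (fun _ : Fin n => (X : F[X]))) h0
    rw [← aeval_algHom_apply, FreeAlgebra.lift_ι_apply, map_zero, aeval_X_left_apply] at h1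
    exact hmonic.ne_zero h1
  by_contra hcon
  rcases Nat.eq_zero_or_pos (∑ T ∈ H, T.1) with h0 | hpos
  · -- all tuples have dimension zero
    have hP1 : P = 1 := hmonic.natDegree_eq_zero.1 (by rw [hdeg, h0])
    have hone : (Formula.const 1 : Formula F n).poly = aeval (FreeAlgebra.ι F x) P := by
      rw [hP1]; simp [Formula.poly]
    obtain ⟨T, hT, hTne⟩ := hH (.const 1) (by simpa [Formula.size] using hs) (by rw [hone]; exact hne)
    rw [hone] at hTne
    exact hTne (hvanish T hT)
  · obtain ⟨D, hD⟩ : ∃ D, ∑ T ∈ H, T.1 = D + 1 := ⟨_, (Nat.succ_pred_eq_of_pos hpos).symm⟩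
    obtain ⟨φ, hsize, hpoly⟩ := horner (n := n) x D P hmonic (by rw [hdeg, hD])
    obtain ⟨T, hT, hTne⟩ := hH φ (by omega) (by rw [hpoly]; exact hne)
    rw [hpoly] at hTne
    exact hTne (hvanish T hT)

end Vale.Agent.Results.P314.TotalDimension
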